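import Vale.Agent.P273.H970.Meas2

/-!
# P273, LIM: (M1) and (M2) of helper562
-/

set_option linter.unusedSectionVars false

noncomputable section

namespace Vale.Agent.P273.H970

open Set Filter MeasureTheory H681 H95 H732 H973 H562 H573
open scoped Topology ContDiff

variable (R : Region) (m : ∀ k, Fin (R.n k + 1)) (far : R.Cm → Bool)

theorem Sx_right (j : L) (h : Sx R far j = true) : (R.pl j).isRight = true := by
  unfold Sx at h
  split_ifs at h with h1
  exact h1

theorem norm_epsL {y α : Fin 3 → ℝ} (k : Fin 3) (hy : 8 ≤ y k) :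
    ‖epsL y α k‖ ≤ 1 / 6400 := by
  unfold epsL
  rw [norm_mul, Complex.norm_exp]
  have h1 : ‖((1 / 16 : ℂ)) ^ 2‖ = 1 / 256 := by norm_num
  have h2 : (-(y k : ℂ) + (α k : ℂ) * Complex.I).re = -(y k) := by simp
  rw [h1, h2]
  have := exp_neg_le hy
  linarith

variable {R m far}

theorem eps_emb (p : Co R m) (k : Fin 3) : R.eps (emb R m p) k = epsL p.2.2.1 p.2.2.2.1 k :=
  eps_scl_psi R m p k

/-- the points of the domain are in the closed region of the chart -/
theorem inr_of_domF {y α : Fin 3 → ℝ} {x : Fb R m} (hx : x ∈ domF R m far y α) :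
    (W R m).Inr (mk R m y α x) :=
  ⟨fun f => (hx.1 f).1.le, fun f => (hx.1 f).2.le⟩

/-- **the points of the domain are in `U0`** -/
theorem emb_mem_U0 {y α : Fin 3 → ℝ} (hy : ∀ k, 8 ≤ y k) {x : Fb R m}
    (hx : x ∈ domF R m far y α) : emb R m (mk R m y α x) ∈ H975.U0 R (Sx R far) := by
  have hI := inr_of_domF hx
  have hl : ∀ k, 0 ≤ (W R m).ul (mk R m y α x) k := fun k =>
    (W R m).ul_nonneg hI k (by have := hy k; change 0 ≤ y k; linarith)
  have h16 : ‖(1 / 16 : ℂ)‖ = 1 / 16 := by norm_num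
  refine ⟨fun k => ?_, fun j k hj => ?_, fun j s hj l => ?_⟩
  · rw [eps_emb]
    have := norm_epsL (α := α) k (hy k)
    change ‖epsL y α k‖ < _
    linarith
  · have hr : R.rk j < R.n k := R.rk_lt j k hj
    constructor
    · have h1 := XX_scl_psi R m (mk R m y α x) k ⟨R.rk j, hr⟩
      have h2 : ‖Complex.exp (wreg.LX R.Cm R.n m k ⟨R.rk j, hr⟩ (mk R m y α x))‖ ≤ 1 :=
        (W R m).norm_exp_lS_le_one hI hl _
      change ‖R.XX (H732.scl R ((W R m).psi (mk R m y α x))) k (R.rk j)‖ < 1 / 8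
      have h3 : R.XX (H732.scl R ((W R m).psi (mk R m y α x))) k (R.rk j) = _ := h1
      rw [h3, norm_mul, h16]
      linarith
    · have h1 := YY_scl_psi R m (mk R m y α x) k ⟨R.rk j, hr⟩
      have h2 : ‖Complex.exp (wreg.LY R.Cm R.n m k ⟨R.rk j, hr⟩ (mk R m y α x))‖ ≤ 1 :=
        (W R m).norm_exp_lS_le_one hI hl _
      change ‖R.YY (H732.scl R ((W R m).psi (mk R m y α x))) k (R.rk j)‖ < 1 / 8
      have h3 : R.YY (H732.scl R ((W R m).psi (mk R m y α x))) k (R.rk j) = _ := h1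
      rw [h3, norm_mul, h16]
      linarith
  · have hj' : (R.pl j).isRight = true := by simp [hj]
    have hp : R.pos (emb R m (mk R m y α x)) j = x.2 ⟨j, hj'⟩ := by
      rw [H724.pos_core _ hj]
      rfl
    have hS : Sx R far j = far ⟨j, hj'⟩ := by simp [Sx, hj']
    have hz := hx.2.2 ⟨j, hj'⟩
    have he := norm_epsL (α := α) l (hy l)
    have he' : R.eps (emb R m (mk R m y α x)) l = epsL y α l := eps_emb _ l
    rw [hp, hS, he']
    by_cases hf : far ⟨j, hj'⟩ = true
    · simp only [hf, zone, if_true] at hz ⊢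
      exact far_bound l he hz.2
    · simp only [hf, zone, Bool.false_eq_true, if_false] at hz ⊢
      exact near_bound he (hz.2 l)

variable (R m) in
theorem continuous_mk : Continuous fun q : BF R m => mk R m q.1.1 q.1.2 q.2 := by
  unfold H573.mk
  fun_prop

/-- **(M2)** -/
theorem contOm (X : Ext) (Θ : Gauge) : ContOm X Θ := by
  refine ⟨8, fun T hT R m far q hq => ContinuousAt.continuousWithinAt ?_⟩
  obtain ⟨hy, hα, hx⟩ := hq
  have h1 : ContinuousAt (fun p : Co R m => OmR R m X Θ T (Sx R far) p)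
      (mk R m q.1.1 q.1.2 q.2) := by
    refine continuousAt_OmR' X Θ hT (Sx_right R far) (emb_mem_U0 hy hx) ?_
    exact rootsL_mem (fun k => by have := hy k; change 0 ≤ q.1.1 k; linarith) hα
  exact ca_comp h1 (continuous_mk R m).continuousAt rfl

/-! ### measurability of the domains -/

theorem measurable_epsL (k : Fin 3) : Measurable fun q : (Fin 3 → ℝ) × (Fin 3 → ℝ) =>
    epsL q.1 q.2 k := by
  have h : Continuous fun q : (Fin 3 → ℝ) × (Fin 3 → ℝ) => epsL q.1 q.2 k := by
    unfold epsL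
    fun_prop
  exact h.measurable

theorem measurableSet_zone (b : Bool) :
    MeasurableSet {q : ((Fin 3 → ℝ) × (Fin 3 → ℝ)) × ℂ | q.2 ∈ zone q.1.1 q.1.2 b} := by
  cases b
  · have h1 : {q : ((Fin 3 → ℝ) × (Fin 3 → ℝ)) × ℂ | q.2 ∈ zone q.1.1 q.1.2 false} =
        {q | ‖q.2‖ ≤ 11} ∩ ⋂ k : Fin 3, ({q : ((Fin 3 → ℝ) × (Fin 3 → ℝ)) × ℂ |
          q.2 ∈ H852.ell (ctr k) (epsL q.1.1 q.1.2 k) (1 / 16)})ᶜ := by
      ext q
      simp [zone]
    rw [h1]
    refine (measurableSet_le (by fun_prop) measurable_const).inter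
      (MeasurableSet.iInter fun k => MeasurableSet.compl ?_)
    simp only [H852.ell_eq, Set.mem_ofPred_eq]
    have he : Measurable fun q : ((Fin 3 → ℝ) × (Fin 3 → ℝ)) × ℂ => epsL q.1.1 q.1.2 k :=
      (measurable_epsL k).comp measurable_fst
    have hs : Measurable fun q : ((Fin 3 → ℝ) × (Fin 3 → ℝ)) × ℂ =>
        ((q.2 - ctr k) ^ 2 - epsL q.1.1 q.1.2 k) ^ (2⁻¹ : ℂ) :=
      (((measurable_snd.sub_const (ctr k)).pow_const 2).sub he).pow_const _
    exact (measurableSet_lt ((measurable_snd.sub_const _).add hs).norm measurable_const).inter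
      (measurableSet_lt ((measurable_snd.sub_const _).sub hs).norm measurable_const)
  · have h1 : {q : ((Fin 3 → ℝ) × (Fin 3 → ℝ)) × ℂ | q.2 ∈ zone q.1.1 q.1.2 true} =
        {q | q.2 = 0}ᶜ ∩ {q | ‖q.2‖ < 1 / 11} := by
      ext q
      simp [zone]
    rw [h1]
    exact (measurableSet_eq_fun measurable_snd measurable_const).compl.inter
      (measurableSet_lt (by fun_prop) measurable_const)

theorem measurable_ul (k : Fin 3) :
    Measurable fun q : BF R m => (W R m).ul (mk R m q.1.1 q.1.2 q.2) k := by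
  unfold Reg.ul
  have h1 : Measurable fun q : BF R m => q.1.1 k := by fun_prop
  refine h1.sub (Finset.measurable_fun_sum _ fun f _ => ?_)
  split_ifs
  · have h2 : Measurable fun q : BF R m => q.2.1.1 f := by fun_prop
    exact h2
  · exact measurable_const

/-- **(M1)** -/
theorem measDom : MeasDom := by
  intro R m far
  have h1 : {q : BF R m | q.2 ∈ domF R m far q.1.1 q.1.2} =
      (⋂ f, ({q : BF R m | 0 < q.2.1.1 f} ∩
        {q : BF R m | q.2.1.1 f < (W R m).ul (mk R m q.1.1 q.1.2 q.2) ((W R m).nk f.1)})) ∩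
      ((⋂ f, {q : BF R m | q.2.1.2 f ∈ Ioc (-Real.pi) Real.pi}) ∩
        ⋂ c, {q : BF R m | q.2.2 c ∈ zone q.1.1 q.1.2 (far c)}) := by
    ext q
    simp only [domF, Set.mem_ofPred_eq, Set.mem_inter_iff, Set.mem_iInter]
  rw [h1]
  refine (MeasurableSet.iInter fun f => ?_).inter
    ((MeasurableSet.iInter fun f => ?_).inter (MeasurableSet.iInter fun c => ?_))
  · refine (measurableSet_lt measurable_const ?_).inter (measurableSet_lt ?_ ?_)
    · fun_prop
    · fun_prop
    · exact measurable_ul _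
  · refine measurableSet_Ioc.preimage ?_
    fun_prop
  · have h2 : Measurable fun q : BF R m => ((q.1, q.2.2 c) : ((Fin 3 → ℝ) × (Fin 3 → ℝ)) × ℂ) := by
      fun_prop
    have h3 : {q : BF R m | q.2.2 c ∈ zone q.1.1 q.1.2 (far c)} =
        (fun q : BF R m => ((q.1, q.2.2 c) : ((Fin 3 → ℝ) × (Fin 3 → ℝ)) × ℂ)) ⁻¹'
          {q | q.2 ∈ zone q.1.1 q.1.2 (far c)} := rfl
    rw [h3]
    exact h2 (measurableSet_zone (far c))

end Vale.Agent.P273.H970

end
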