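import Vale.Agent.P273.H857.Stm

/-!
Row GP-EX of P273: existence of admissible graph paths.
-/

open Complex Set Filter Topology MeasureTheory
open scoped ContDiff

namespace Vale.Agent.P273.H970

open Vale.Agent.P273.H857

/-- a smooth path through finitely many prescribed heights -/
theorem exists_path (s : Finset ℝ) (r : ℝ → ℝ) (h0 : r 0 = 0) :
    ∃ g, IsPath g ∧ ∀ t ∈ s, g t = r t := by
  classical
  set s' : Finset ℝ := insert 0 s with hs'
  set p : Polynomial ℝ := Lagrange.interpolate s' id r with hp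
  have hnode : ∀ t ∈ s', p.eval t = r t := fun t ht =>
    Lagrange.eval_interpolate_at_node r (Function.injective_id.injOn) ht
  obtain ⟨M, hM0, hM⟩ : ∃ M : ℝ, 0 < M ∧ ∀ t ∈ s', |t| ≤ M := by
    refine ⟨1 + ∑ t ∈ s', |t|, by positivity, fun t ht => ?_⟩
    have := Finset.single_le_sum (f := fun t : ℝ => |t|) (fun i _ => abs_nonneg i) ht
    linarith
  let φ : ContDiffBump (0 : ℝ) := ⟨M, M + 1, hM0, by linarith⟩
  have hφ1 : ∀ t ∈ s', φ t = 1 := fun t ht => φ.one_of_mem_closedBall (by
    rw [Metric.mem_closedBall, Real.dist_eq, sub_zero]; exact hM t ht)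
  have hsm : ContDiff ℝ ∞ fun t => p.eval t * φ t :=
    (Polynomial.contDiff_aeval p ∞).mul φ.contDiff
  have hcs : HasCompactSupport fun t => p.eval t * φ t := φ.hasCompactSupport.mul_left
  refine ⟨fun t => p.eval t * φ t, ⟨hsm, ?_, ?_⟩, fun t ht => ?_⟩
  · have h : (0 : ℝ) ∈ s' := Finset.mem_insert_self _ _
    simp only [hnode 0 h, h0, zero_mul]
  · have hc : Continuous (deriv fun t => p.eval t * φ t) := hsm.continuous_deriv (by simp)
    obtain ⟨C, hC⟩ := hc.bounded_above_of_compact_support hcs.deriv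
    exact ⟨C, fun t => by simpa [Real.norm_eq_abs] using hC t⟩
  · have h : t ∈ s' := Finset.mem_insert_of_mem ht
    simp only [hnode t h, hφ1 t h, mul_one]

/-- **Row GP-EX.** -/
theorem stmEX : StmEX := by
  classical
  intro B b x hOK
  have hv : ∀ t : ℝ, 0 < t → ∃ v : ℝ, ∀ l, (b l - x).re = t →
      (l ∈ B → v < (b l - x).im) ∧ (l ∉ B → (b l - x).im < v) := by
    intro t ht
    obtain ⟨v, h1, h2⟩ := Order.exists_between_finsets
      ((Finset.univ.filter fun l => (b l - x).re = t ∧ l ∉ B).image fun l => (b l - x).im)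
      ((Finset.univ.filter fun l => (b l - x).re = t ∧ l ∈ B).image fun l => (b l - x).im) (by
        intro y hy z hz
        simp only [Finset.mem_image, Finset.mem_filter, Finset.mem_univ, true_and] at hy hz
        obtain ⟨m, ⟨hm1, hm2⟩, rfl⟩ := hy
        obtain ⟨l, ⟨hl1, hl2⟩, rfl⟩ := hz
        rw [sub_re] at hm1 hl1
        have := hOK.1 l hl2 m hm2 (by linarith) (by linarith)
        rw [sub_im, sub_im]; linarith)
    refine ⟨v, fun l hl => ⟨fun hB => h2 _ ?_, fun hB => h1 _ ?_⟩⟩
    · exact Finset.mem_image_of_mem _ (Finset.mem_filter.2 ⟨Finset.mem_univ _, hl, hB⟩)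
    · exact Finset.mem_image_of_mem _ (Finset.mem_filter.2 ⟨Finset.mem_univ _, hl, hB⟩)
  choose v hv using hv
  obtain ⟨g, hg, hgt⟩ := exists_path (Finset.univ.image fun l => (b l - x).re)
    (fun t => if h : 0 < t then v t h else 0) (by simp)
  refine ⟨g, hg, fun l hl hre => ?_⟩
  rw [hgt _ (Finset.mem_image_of_mem _ (Finset.mem_univ l))]
  rcases hre.eq_or_lt with h | h
  · have h1 : (b l).re = x.re := by rw [sub_re] at h; linarith
    have h2 := hOK.2 l hl h1
    rw [dif_neg (by rw [← h]; exact lt_irrefl _), sub_im]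
    exact ⟨fun hB => by linarith [h2.1 hB], fun hB => by linarith [h2.2 hB]⟩
  · rw [dif_pos h]
    exact hv _ h l rfl

end Vale.Agent.P273.H970
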