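import Vale.Agent.P273.H573.Skel
import Vale.Agent.P273.H724.RegAn

/-!
# P273, LIM: the integrand of a region is continuous at the good points

Good points: the marks are separated, the roots are in `XX` and no mark is at a root.
-/

set_option linter.unusedSectionVars false

noncomputable section

namespace Vale.Agent.P273.H970

open Set Filter MeasureTheory H681 H95 H732 H973 H562 H573
open scoped Topology ContDiff

/-! ### evaluation -/

section Eval

variable {Z Z' E F : Type*} [TopologicalSpace Z] [TopologicalSpace Z'] [NormedAddCommGroup E]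
  [NormedSpace ℝ E] [NormedAddCommGroup F] [NormedSpace ℝ F]

theorem ca_alt {k : ℕ} {f : Z → E [⋀^Fin k]→L[ℝ] ℝ} {g : Z → Fin k → E} {z : Z}
    (hf : ContinuousAt f z) (hg : ContinuousAt g z) : ContinuousAt (fun z => f z (g z)) z :=
  hf.eval hg

theorem ca_clm {f : Z → E →L[ℝ] F} {g : Z → E} {z : Z}
    (hf : ContinuousAt f z) (hg : ContinuousAt g z) : ContinuousAt (fun z => f z (g z)) z :=
  hf.clm_apply hg

theorem ca_comp {W : Type*} [TopologicalSpace W] {f : Z' → W} {g : Z → Z'} {z : Z} {y : Z'}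
    (hf : ContinuousAt f y) (hg : ContinuousAt g z) (h : g z = y) :
    ContinuousAt (fun z => f (g z)) z := by
  subst h; exact ContinuousAt.comp hf hg

end Eval

/-! ### roots and sheets -/

theorem isOpen_XX : IsOpen H681.XX := by
  have h : H681.XX = ⋂ i : Fin 6, ⋂ j : Fin 6, {b : C6 | i < j → (b i).re = (b j).re →
      (b j).im < (b i).im} := by
    ext b; simp [H681.XX]
  rw [h]
  refine isOpen_iInter_of_finite fun i => isOpen_iInter_of_finite fun j => ?_
  have h1 : {b : C6 | i < j → (b i).re = (b j).re → (b j).im < (b i).im} =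
      ({b : C6 | i < j ∧ (b i).re = (b j).re ∧ (b i).im ≤ (b j).im})ᶜ := by
    ext b
    simp only [Set.mem_ofPred_eq, Set.mem_compl_iff, not_and, not_le]
  rw [h1, isOpen_compl_iff]
  by_cases hij : i < j
  · have h2 : {b : C6 | i < j ∧ (b i).re = (b j).re ∧ (b i).im ≤ (b j).im} =
        {b : C6 | (b i).re = (b j).re} ∩ {b : C6 | (b i).im ≤ (b j).im} := by
      ext b; simp [hij]
    rw [h2]
    refine IsClosed.inter (isClosed_eq ?_ ?_) (isClosed_le ?_ ?_)
    all_goals fun_prop
  · have h2 : {b : C6 | i < j ∧ (b i).re = (b j).re ∧ (b i).im ≤ (b j).im} = ∅ := by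
      ext b; simp [hij]
    rw [h2]; exact isClosed_empty

theorem isCl_col4 (a : Fin 4) : IsCl (col4 a) := by
  unfold IsCl
  fin_cases a <;> simp [col4, Fin.sum_univ_succ] <;> norm_num

theorem rts_th (d : Fin 3 → ℂ) : rts (H828.th d) = thA fun k => d k ^ 2 := by
  have h : (∏ k : Fin 6, (Polynomial.X - Polynomial.C (H828.th d k))) =
      ∏ k : Fin 3, ((Polynomial.X - Polynomial.C (ctr k)) ^ 2 - Polynomial.C (d k ^ 2)) := by
    rw [Fin.prod_univ_six, Fin.prod_univ_three]
    have e0 : H828.th d 0 = ctr 0 - d 0 := by simp [H828.th, ctr]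
    have e1 : H828.th d 1 = ctr 0 + d 0 := by simp [H828.th, ctr]
    have e2 : H828.th d 2 = ctr 1 - d 1 := by simp [H828.th, ctr]; ring
    have e3 : H828.th d 3 = ctr 1 + d 1 := by simp [H828.th, ctr]; ring
    have e4 : H828.th d 4 = ctr 2 - d 2 := by simp [H828.th, ctr]; ring
    have e5 : H828.th d 5 = ctr 2 + d 2 := by simp [H828.th, ctr]; ring
    rw [e0, e1, e2, e3, e4, e5]
    simp only [map_add, map_sub, map_pow]
    ring
  funext i
  unfold rts thA
  rw [h]

section

variable {R : Region} {m : ∀ k, Fin (R.n k + 1)} {S : L → Bool}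

/-- the sextic of the roots -/
theorem rts_rootsL (p : Co R m) :
    rts (rootsL p.2.2.1 p.2.2.2.1) = thA (R.eps (emb R m p)) := by
  rw [rootsL, rts_th]
  congr 1
  funext k
  rw [H562.emb, eps_scl_psi, mul_pow, ← Complex.exp_nat_mul]
  congr 2
  push_cast; ring

theorem U0_neck_sub_ne {p : R.Sp} (h : p ∈ H975.U0 R S) {j : L} {k : Fin 3}
    (hj : R.pl j = Sum.inl k) (l : Fin 3) (hl : l ≠ k) : R.pos p j - ctr l ≠ 0 := by
  have h1 := H975.neck_far h hj hl
  intro h2
  rw [h2, norm_zero] at h1
  linarith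

/-- the marks are on the curve -/
theorem U0_sq (hS : ∀ j, S j = true → (R.pl j).isRight = true) {p : R.Sp}
    (h : p ∈ H975.U0 R S) (j : L) :
    R.sht S p j ^ 2 = pol (S j) (thA (R.eps p)) (R.pos p j) := by
  rcases hj : R.pl j with k | s
  · have hSj : S j = false := by
      by_contra hc
      have h1 := hS j (by simpa using hc)
      rw [hj] at h1
      simp at h1
    rw [H724.sht_neck p hj, hSj, pol, if_neg (by simp), H724.sx_thA,
      H724.prod_neck (U0_neck_sub_ne h hj)]
    have e1 : R.pos p j - ctr k = (R.XX p k (R.rk j) + R.YY p k (R.rk j)) / 2 := by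
      rw [H724.pos_neck p hj]; ring
    rw [e1, ← H724.XX_mul_YY p k (R.rk j)]
    ring
  · have hsg : ((if s then (-1 : ℂ) else 1)) ^ 2 = 1 := by cases s <;> simp
    rw [H724.sht_core p hj, mul_pow, hsg, one_mul]
    have hc := h.2.2 j s hj
    by_cases hSj : S j = true
    · simp only [hSj, if_true] at hc
      have hd : ∀ l, ‖R.eps p l * R.pos p j ^ 2‖ < 1 / 4 * ‖1 - ctr l * R.pos p j‖ ^ 2 := fun l => by
        have := hc l; linarith
      rw [if_pos hSj, pol, if_pos hSj, H724.sw_thA, H724.gcw_sq fun l => H724.ne_of_frac (hd l)]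
    · have hSj' : S j = false := by simpa using hSj
      simp only [hSj', Bool.false_eq_true, if_false] at hc
      have hd : ∀ l, ‖R.eps p l‖ < 1 / 4 * ‖R.pos p j - ctr l‖ ^ 2 := fun l => by
        have := hc l; linarith
      rw [if_neg hSj, pol, if_neg hSj, H724.sx_thA, H724.gc_sq fun l => H724.ne_of_frac (hd l)]

theorem isOpen_U0 : IsOpen (H975.U0 R S) := H724.dom1_open

variable (R m) in
theorem contDiff_emb : ContDiff ℝ ω (emb R m) :=
  (H732.scl R).contDiff.comp (W R m).contDiff_psi

variable (R m) in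
theorem continuous_emb : Continuous (emb R m) := (contDiff_emb R m).continuous

theorem contDiff_pos (j : L) : ContDiff ℝ ω (fun p : R.Sp => R.pos p j) := by
  rw [contDiff_iff_contDiffAt]
  intro p
  exact ((H724.an_pos (p := p) j).restrictScalars (𝕜 := ℝ)).contDiffAt

variable (R m) in
theorem contDiff_posE : ContDiff ℝ ∞ (posE R m) := by
  have h1 : ContDiff ℝ ∞ (fun p : Co R m => rootsL p.2.2.1 p.2.2.2.1) := by
    rw [contDiff_pi]
    intro i
    have h3 : ∀ k : Fin 3, ContDiff ℝ ∞ fun p : Co R m =>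
        (1 / 16 : ℂ) * Complex.exp ((-(p.2.2.1 k : ℂ) + (p.2.2.2.1 k : ℂ) * Complex.I) / 2) := by
      intro k
      have ha : ContDiff ℝ ∞ fun p : Co R m => (p.2.2.1 k : ℂ) :=
        Complex.ofRealCLM.contDiff.comp (by fun_prop)
      have hb : ContDiff ℝ ∞ fun p : Co R m => (p.2.2.2.1 k : ℂ) :=
        Complex.ofRealCLM.contDiff.comp (by fun_prop)
      exact contDiff_const.mul (((ha.neg.add (hb.mul contDiff_const)).div_const 2).cexp)
    unfold rootsL H828.th
    fin_cases i
    · exact contDiff_const.sub (h3 0)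
    · exact contDiff_const.add (h3 0)
    · exact contDiff_const.sub (h3 1)
    · exact contDiff_const.add (h3 1)
    · exact contDiff_const.sub (h3 2)
    · exact contDiff_const.add (h3 2)
  have h2 : ContDiff ℝ ∞ (fun p : Co R m => R.pos (emb R m p)) := by
    rw [contDiff_pi]
    intro j
    exact ((contDiff_pos j).comp (contDiff_emb R m)).of_le le_top
  exact h1.prodMk h2

/-- the sheets are on the curve of the roots -/
theorem shE_sq (hS : ∀ j, S j = true → (R.pl j).isRight = true) {p : Co R m}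
    (h : emb R m p ∈ H975.U0 R S) (j : L) :
    shE R m S p j ^ 2 = pol (S j) (rts (posE R m p).1) ((posE R m p).2 j) := by
  have h1 := U0_sq hS h j
  rw [← rts_rootsL] at h1
  exact h1

theorem onC (hS : ∀ j, S j = true → (R.pl j).isRight = true) {p : Co R m}
    (h : emb R m p ∈ H975.U0 R S) (h0 : ∀ j, shE R m S p j ≠ 0) :
    OnC S (rts (posE R m p).1) (posE R m p).2 (shE R m S p) := fun j =>
  ⟨shE_sq hS h j, h0 j⟩

theorem continuousAt_shE {p : Co R m} (h : emb R m p ∈ H975.U0 R S) (j : L) :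
    ContinuousAt (fun q => shE R m S q j) p := by
  have h1 : ContinuousAt (fun q : R.Sp => R.sht S q j) (emb R m p) :=
    (H975.continuousOn_sht S j).continuousAt (isOpen_U0.mem_nhds h)
  exact ContinuousAt.comp (f := emb R m) h1 (continuous_emb R m).continuousAt

/-- the forms of the gauge are continuous -/
theorem continuousAt_θ (Θ : Gauge) (hS : ∀ j, S j = true → (R.pl j).isRight = true) {p : Co R m}
    (h : emb R m p ∈ H975.U0 R S) (hX : (posE R m p).1 ∈ H681.XX)
    (h0 : ∀ j, shE R m S p j ≠ 0) (j : L) {ξ : Fin 6 → ℝ} (hξ : IsCl ξ) :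
    ContinuousAt (fun q => Θ.θ j ξ S (posE R m q) (shE R m S q)) p := by
  obtain ⟨W, g, r, hWo, hW, hr, hg, -, heq⟩ := Θ.reg j ξ S (posE R m p) (shE R m S p) hξ hX
    (onC hS h h0)
  have hcE : ContinuousAt (posE R m) p := (contDiff_posE R m).continuous.continuousAt
  have h1 : (fun q => Θ.θ j ξ S (posE R m q) (shE R m S q)) =ᶠ[𝓝 p] fun q => g (posE R m q) := by
    have ha : ∀ᶠ q in 𝓝 p, posE R m q ∈ W := hcE (hWo.mem_nhds hW)
    have hb : ∀ᶠ q in 𝓝 p, emb R m q ∈ H975.U0 R S :=
      (continuous_emb R m).continuousAt (isOpen_U0.mem_nhds h)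
    have hc : ∀ᶠ q in 𝓝 p, ∀ i, ‖shE R m S q i - shE R m S p i‖ < r := by
      rw [eventually_all]
      intro i
      have := (continuousAt_shE h i)
      have h2 := Metric.continuousAt_iff'.1 this r hr
      filter_upwards [h2] with q hq
      rwa [dist_eq_norm] at hq
    filter_upwards [ha, hb, hc] with q q1 q2 q3
    exact heq _ q1 _ (shE_sq hS q2) q3
  refine ContinuousAt.congr ?_ h1.symm
  exact ContinuousAt.comp (f := posE R m) (hg.continuousOn.continuousAt (hWo.mem_nhds hW)) hcE

/-- the good points -/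
def Gd (R : Region) (m : ∀ k, Fin (R.n k + 1)) (S : L → Bool) : Set (Co R m) :=
  {p | emb R m p ∈ R.dom S ∧ (posE R m p).1 ∈ H681.XX ∧ ∀ j, shE R m S p j ≠ 0}

theorem isOpen_Gd : IsOpen (Gd R m S) := by
  rw [isOpen_iff_mem_nhds]
  intro p hp
  have ha : ∀ᶠ q in 𝓝 p, emb R m q ∈ R.dom S :=
    (continuous_emb R m).continuousAt (H724.P_open.mem_nhds hp.1)
  have hb : ∀ᶠ q in 𝓝 p, (posE R m q).1 ∈ H681.XX :=
    ((contDiff_posE R m).continuous.fst).continuousAt (isOpen_XX.mem_nhds hp.2.1)
  have hc : ∀ᶠ q in 𝓝 p, ∀ j, shE R m S q j ≠ 0 := by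
    rw [eventually_all]
    intro j
    exact (continuousAt_shE (H975.dom_subset_U0 S hp.1) j).eventually_ne (hp.2.2 j)
  filter_upwards [ha, hb, hc] with q q1 q2 q3
  exact ⟨q1, q2, q3⟩

/-- the form `F` in the chart, evaluated -/
theorem FR_apply (X : Ext) (p : Co R m) (v : Fin 16 → Co R m) :
    FR R m X S p v = X.H R S (emb R m p) fun i => H732.scl R ((W R m).dpsi p (v i)) := rfl

theorem continuous_dpsi (u : Co R m) :
    Continuous fun q : Co R m => H732.scl R ((W R m).dpsi q u) := by
  refine (H732.scl R).continuous.comp ?_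
  simp only [Reg.dpsi_apply]
  refine Continuous.prodMk (continuous_pi fun g => Continuous.mul ?_ continuous_const)
    continuous_const
  exact (continuous_apply g).comp ((W R m).continuous_psi (C := R.Cm)).fst

theorem continuousAt_FR (X : Ext) (hS : ∀ j, S j = true → (R.pl j).isRight = true) {p : Co R m}
    (hp : emb R m p ∈ R.dom S) (v : Fin 16 → Co R m) :
    ContinuousAt (fun q : Co R m => FR R m X S q v) p := by
  have h1 : ContinuousAt (X.H R S) (emb R m p) :=
    (X.hreg R S hS).1.continuousOn.continuousAt (H724.P_open.mem_nhds hp)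
  have h2 : ContinuousAt (fun q : Co R m => X.H R S (emb R m q)) p :=
    ca_comp h1 (continuous_emb R m).continuousAt rfl
  have h3 : Continuous fun q : Co R m => fun i : Fin 16 =>
      H732.scl R ((W R m).dpsi q (v i)) := continuous_pi fun i => continuous_dpsi (v i)
  have h4 : (fun q : Co R m => FR R m X S q v) = fun q =>
      (X.H R S (emb R m q)) (fun i => H732.scl R ((W R m).dpsi q (v i))) :=
    funext fun q => FR_apply X q v
  rw [h4]
  exact ca_alt (f := fun q => X.H R S (emb R m q)) h2 h3.continuousAt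

theorem continuousAt_thR (Θ : Gauge) (hS : ∀ j, S j = true → (R.pl j).isRight = true)
    {p : Co R m} (h : emb R m p ∈ H975.U0 R S) (hX : (posE R m p).1 ∈ H681.XX)
    (h0 : ∀ j, shE R m S p j ≠ 0) (i : Fin 14) (v : Co R m) :
    ContinuousAt (fun q : Co R m => thR R m Θ S i q v) p := by
  have h1 : Continuous fun q : Co R m => fderiv ℝ (posE R m) q v :=
    ((contDiff_posE R m).continuous_fderiv (by simp)).clm_apply continuous_const
  rw [continuousAt_pi]
  intro a
  exact ca_clm (f := fun q => Θ.θ (mrk i) (col4 a) S (posE R m q) (shE R m S q))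
    (continuousAt_θ Θ hS h hX h0 (mrk i) (isCl_col4 a)) h1.continuousAt

theorem continuousAt_alt {Z E : Type*} [TopologicalSpace Z] [NormedAddCommGroup E]
    [NormedSpace ℝ E] [FiniteDimensional ℝ E] {k : ℕ} {f : Z → E [⋀^Fin k]→L[ℝ] ℝ} {z : Z}
    (h : ∀ w, ContinuousAt (fun z => f z w) z) : ContinuousAt f z := by
  obtain ⟨κ, hκ, W, Q, hQ⟩ := exists_evals (Fin k) E ℝ
  have h1 : ContinuousAt (fun z => fun k : κ => f z (W k)) z := continuousAt_pi.2 fun k => h (W k)
  have h2 := Q.continuous.continuousAt.comp h1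
  simpa [Function.comp_def, hQ] using h2

/-- **the integrand is continuous at the good points** -/
theorem continuousAt_OmR (X : Ext) (Θ : Gauge) (T : MT)
    (hS : ∀ j, S j = true → (R.pl j).isRight = true) {p : Co R m} (hp : p ∈ Gd R m S) :
    ContinuousAt (fun q : Co R m => OmR R m X Θ T S q) p := by
  refine continuousAt_alt fun w => ?_
  have h4 : ∀ σ : Equiv.Perm (Fin (16 + 14)), ContinuousAt (fun q : Co R m =>
      Equiv.Perm.sign σ • ((FR R m X S q fun i => w (σ (Fin.castAdd 14 i))) •
      T fun j => thR R m Θ S j q (w (σ (Fin.natAdd 16 j))))) p := by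
    intro σ
    have h3 : ContinuousAt (fun q : Co R m =>
        T fun j => thR R m Θ S j q (w (σ (Fin.natAdd 16 j)))) p :=
      ca_comp (f := fun v : Fin 14 → H4 => T v)
        (g := fun q : Co R m => fun j : Fin 14 => thR R m Θ S j q (w (σ (Fin.natAdd 16 j))))
        T.cont.continuousAt (continuousAt_pi.2 fun j =>
          continuousAt_thR Θ hS (H975.dom_subset_U0 S hp.1) hp.2.1 hp.2.2 j _) rfl
    have h5 : ContinuousAt (fun q : Co R m => (FR R m X S q fun i => w (σ (Fin.castAdd 14 i))) •
        T fun j => thR R m Θ S j q (w (σ (Fin.natAdd 16 j)))) p :=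
      (continuousAt_FR X hS hp.1 fun i => w (σ (Fin.castAdd 14 i))).smul h3
    exact h5.const_smul (Equiv.Perm.sign σ)
  have h6 : (fun q : Co R m => OmR R m X Θ T S q w) = fun q => ((Nat.factorial 16 : ℝ)⁻¹) •
      ∑ σ : Equiv.Perm (Fin (16 + 14)), Equiv.Perm.sign σ •
        ((FR R m X S q fun i => w (σ (Fin.castAdd 14 i))) •
      T fun j => thR R m Θ S j q (w (σ (Fin.natAdd 16 j)))) :=
    funext fun q => wedgeT_apply _ _ _ _
  rw [h6]
  exact (tendsto_finsetSum _ fun σ _ => h4 σ).const_smul _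

end

end Vale.Agent.P273.H970

end
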