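import Vale.Agent.P273.H970.Meas1
import Vale.Agent.P273.H182.WfChg
import Vale.Agent.P273.H562.RegDefs
import Vale.Agent.P273.H852.Neck3

/-!
# P273, LIM: the integrand of a region is continuous on the domain (M2), the domain is measurable (M1)

Near a point where a mark is at a root, or two marks of the same type coincide, the form is zero.
-/

set_option linter.unusedSectionVars false

noncomputable section

namespace Vale.Agent.P273.H970

open Set Filter MeasureTheory H681 H95 H732 H973 H562 H573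
open scoped Topology ContDiff

section

variable {R : Region} {m : ∀ k, Fin (R.n k + 1)} {S : L → Bool}

theorem th_eq_zero {Θ : Gauge} {i : Fin 14} {e : E} {v : L → ℂ}
    (h : ∀ ξ, IsCl ξ → Θ.θ (mrk i) ξ S e v = 0) : Θ.th i S e v = 0 := by
  refine ContinuousLinearMap.ext fun u => funext fun a => ?_
  change Θ.θ (mrk i) (col4 a) S e v u = 0
  rw [h _ (isCl_col4 a)]
  rfl

theorem th_eq {Θ : Gauge} {i i' : Fin 14} {e : E} {v : L → ℂ}
    (h : ∀ ξ, IsCl ξ → Θ.θ (mrk i) ξ S e v = Θ.θ (mrk i') ξ S e v) :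
    Θ.th i S e v = Θ.th i' S e v := by
  refine ContinuousLinearMap.ext fun u => funext fun a => ?_
  change Θ.θ (mrk i) (col4 a) S e v u = Θ.θ (mrk i') (col4 a) S e v u
  rw [h _ (isCl_col4 a)]

variable (R m) in
theorem continuous_posE : Continuous (posE R m) := (contDiff_posE R m).continuous

/-- near a point where a mark is at a root the form is zero -/
theorem OmR_root (X : Ext) (Θ : Gauge) (T : MT) (hS : ∀ j, S j = true → (R.pl j).isRight = true)
    {p : Co R m} (h : emb R m p ∈ H975.U0 R S) (hX : (posE R m p).1 ∈ H681.XX) {j : L}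
    (h0 : shE R m S p j = 0) : ∀ᶠ q in 𝓝 p, OmR R m X Θ T S q = 0 := by
  have h1 := shE_sq hS h j
  rw [h0, zero_pow two_ne_zero] at h1
  obtain ⟨k, hk⟩ := H182.root_of_pol h1.symm
  obtain ⟨r, hr, hroot⟩ := Θ.root _ hX k
  obtain ⟨i, hi⟩ := H182.mrk_surj j
  have hc := continuous_posE R m
  have ha : ∀ᶠ q in 𝓝 p, ‖(posE R m q).1 - (posE R m p).1‖ < r := by
    have h2 : Continuous fun q => ‖(posE R m q).1 - (posE R m p).1‖ :=
      (hc.fst.sub continuous_const).norm
    refine h2.continuousAt.eventually_lt continuousAt_const ?_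
    simpa using hr
  have hb : ∀ᶠ q in 𝓝 p, (if S j then ‖(posE R m q).2 j * (posE R m p).1 k - 1‖ < r
      else ‖(posE R m q).2 j - (posE R m p).1 k‖ < r) := by
    have hj : Continuous fun q => (posE R m q).2 j := (continuous_apply j).comp hc.snd
    by_cases hs : S j = true
    · simp only [hs, if_true] at hk ⊢
      refine ((hj.mul continuous_const).sub continuous_const).norm.continuousAt.eventually_lt
        continuousAt_const ?_
      change ‖(posE R m p).2 j * (posE R m p).1 k - 1‖ < r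
      rw [hk, norm_zero]; exact hr
    · simp only [hs, Bool.false_eq_true, if_false] at hk ⊢
      refine (hj.sub continuous_const).norm.continuousAt.eventually_lt continuousAt_const ?_
      change ‖(posE R m p).2 j - (posE R m p).1 k‖ < r
      rw [hk, norm_zero]; exact hr
  have hd : ∀ᶠ q in 𝓝 p, emb R m q ∈ H975.U0 R S :=
    (continuous_emb R m).continuousAt (isOpen_U0.mem_nhds h)
  filter_upwards [ha, hb, hd] with q q1 q2 q3
  refine wedgeT_eq_zero_of_zero _ _ (a := i) ?_
  have h3 : Θ.th i S (posE R m q) (shE R m S q) = 0 := th_eq_zero fun ξ hξ => by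
    rw [hi]
    exact hroot j ξ S _ _ hξ q1 q2 (shE_sq hS q3)
  change (Θ.th i S (posE R m q) (shE R m S q)).comp (fderiv ℝ (posE R m) q) = 0
  rw [h3, ContinuousLinearMap.zero_comp]

/-- near a point where two marks of the same type coincide the form is zero -/
theorem OmR_same (X : Ext) (Θ : Gauge) {T : MT} (hT : SymT T)
    (hS : ∀ j, S j = true → (R.pl j).isRight = true)
    {p : Co R m} (h : emb R m p ∈ H975.U0 R S) (hX : (posE R m p).1 ∈ H681.XX)
    (h0 : ∀ j, shE R m S p j ≠ 0) {i j : L} (hij : i ≠ j) (ht : i.2 = j.2)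
    (hs : Same (S i) (R.pos (emb R m p) i) (R.sht S (emb R m p) i) (S j) (R.pos (emb R m p) j)
      (R.sht S (emb R m p) j)) : ∀ᶠ q in 𝓝 p, OmR R m X Θ T S q = 0 := by
  obtain ⟨r, hr, hcol⟩ := Θ.col i j hij ht S (posE R m p) (shE R m S p) hX (onC hS h h0) hs
  obtain ⟨a, rfl⟩ := H182.mrk_surj i
  obtain ⟨b, rfl⟩ := H182.mrk_surj j
  have hc := continuous_posE R m
  have ha : ∀ᶠ q in 𝓝 p, ‖posE R m q - posE R m p‖ < r := by
    refine (hc.sub continuous_const).norm.continuousAt.eventually_lt continuousAt_const ?_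
    simpa using hr
  have hb : ∀ᶠ q in 𝓝 p, ∀ i, ‖shE R m S q i - shE R m S p i‖ < r := by
    rw [eventually_all]
    intro i
    have h2 := Metric.continuousAt_iff'.1 (continuousAt_shE h i) r hr
    filter_upwards [h2] with q hq
    rwa [dist_eq_norm] at hq
  have hd : ∀ᶠ q in 𝓝 p, emb R m q ∈ H975.U0 R S :=
    (continuous_emb R m).continuousAt (isOpen_U0.mem_nhds h)
  filter_upwards [ha, hb, hd] with q q1 q2 q3
  have hab : a ≠ b := fun h => hij (by rw [h])
  refine wedgeT_eq_zero_of_eq _ hab (hT a b ht) ?_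
  have h3 : Θ.th a S (posE R m q) (shE R m S q) = Θ.th b S (posE R m q) (shE R m S q) :=
    th_eq fun ξ hξ => hcol _ _ q1 q2 (shE_sq hS q3) ξ hξ
  change (Θ.th a S (posE R m q) (shE R m S q)).comp (fderiv ℝ (posE R m) q) =
    (Θ.th b S (posE R m q) (shE R m S q)).comp (fderiv ℝ (posE R m) q)
  rw [h3]

/-- two marks of a neck with gap product one coincide -/
theorem same_of_prod (hS : ∀ j, S j = true → (R.pl j).isRight = true) {p : R.Sp} {i j : L}
    {k : Fin 3} (hi : R.pl i = Sum.inl k) (hj : R.pl j = Sum.inl k) (hr : R.rk i < R.rk j)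
    (h : ∏ g : Fin (R.n k + 1), (if R.rk i < (g : ℕ) ∧ (g : ℕ) ≤ R.rk j then p.1 ⟨k, g⟩ else 1)
      = 1) : Same (S i) (R.pos p i) (R.sht S p i) (S j) (R.pos p j) (R.sht S p j) := by
  have hSi : S i = false := by
    by_contra hc
    have h1 := hS i (by simpa using hc)
    rw [hi] at h1; simp at h1
  have hSj : S j = false := by
    by_contra hc
    have h1 := hS j (by simpa using hc)
    rw [hj] at h1; simp at h1
  have hX : R.XX p k (R.rk j) = R.XX p k (R.rk i) := by
    have h2 : R.XX p k (R.rk j) = R.XX p k (R.rk i) * ∏ g : Fin (R.n k + 1),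
        (if R.rk i < (g : ℕ) ∧ (g : ℕ) ≤ R.rk j then p.1 ⟨k, g⟩ else 1) := by
      unfold Region.XX
      rw [← Finset.prod_mul_distrib]
      refine Finset.prod_congr rfl fun g _ => ?_
      by_cases h3 : (g : ℕ) ≤ R.rk i
      · have h4 : (g : ℕ) ≤ R.rk j := by omega
        simp [h3, h4, not_lt.2 h3]
      · have h5 : R.rk i < (g : ℕ) := by omega
        simp [h3, h5]
    rw [h2, h, mul_one]
  have hY : R.YY p k (R.rk i) = R.YY p k (R.rk j) := by
    have h2 : R.YY p k (R.rk i) = R.YY p k (R.rk j) * ∏ g : Fin (R.n k + 1),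
        (if R.rk i < (g : ℕ) ∧ (g : ℕ) ≤ R.rk j then p.1 ⟨k, g⟩ else 1) := by
      unfold Region.YY
      rw [← Finset.prod_mul_distrib]
      refine Finset.prod_congr rfl fun g _ => ?_
      by_cases h3 : R.rk j < (g : ℕ)
      · have h4 : R.rk i < (g : ℕ) := by omega
        simp [h3, h4, not_le.2 h3]
      · have h5 : (g : ℕ) ≤ R.rk j := by omega
        simp [h3, h5]
    rw [h2, h, mul_one]
  have hpos : R.pos p i = R.pos p j := by
    rw [H724.pos_neck p hi, H724.pos_neck p hj, hX, hY]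
  unfold Same
  rw [if_pos (by rw [hSi, hSj])]
  refine ⟨hpos, ?_⟩
  rw [H724.sht_neck p hi, H724.sht_neck p hj, hX, hY, hpos]

/-- **the integrand is continuous**, also at the points where marks coincide or are at roots -/
theorem continuousAt_OmR' (X : Ext) (Θ : Gauge) {T : MT} (hT : SymT T)
    (hS : ∀ j, S j = true → (R.pl j).isRight = true)
    {p : Co R m} (h : emb R m p ∈ H975.U0 R S) (hX : (posE R m p).1 ∈ H681.XX) :
    ContinuousAt (fun q : Co R m => OmR R m X Θ T S q) p := by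
  have key : (∀ᶠ q in 𝓝 p, OmR R m X Θ T S q = 0) →
      ContinuousAt (fun q : Co R m => OmR R m X Θ T S q) p := fun hz =>
    (continuousAt_const (y := (0 : Alt (16 + 14) (Co R m)))).congr (hz.mono fun q hq => hq.symm)
  by_cases h0 : ∀ j, shE R m S p j ≠ 0
  · by_cases h1 : ∀ i j : L, i ≠ j → i.2 = j.2 →
        (∀ k, ¬ (R.pl i = Sum.inl k ∧ R.pl j = Sum.inl k)) →
        ¬ Same (S i) (R.pos (emb R m p) i) (R.sht S (emb R m p) i) (S j) (R.pos (emb R m p) j)
          (R.sht S (emb R m p) j)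
    · by_cases h2 : ∀ (i j : L) (k : Fin 3), R.pl i = Sum.inl k → R.pl j = Sum.inl k →
          i.2 = j.2 → R.rk i < R.rk j → ∏ g : Fin (R.n k + 1),
            (if R.rk i < (g : ℕ) ∧ (g : ℕ) ≤ R.rk j then (emb R m p).1 ⟨k, g⟩ else 1) ≠ 1
      · exact continuousAt_OmR X Θ T hS ⟨⟨h.1, h.2.1, h.2.2, h1, h2⟩, hX, h0⟩
      · push Not at h2
        obtain ⟨i, j, k, hi, hj, ht, hr, hp⟩ := h2
        have hij : i ≠ j := fun hc => by rw [hc] at hr; exact lt_irrefl _ hr
        exact key (OmR_same X Θ hT hS h hX h0 hij ht (same_of_prod hS hi hj hr hp))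
    · push Not at h1
      obtain ⟨i, j, hij, ht, -, hs⟩ := h1
      exact key (OmR_same X Θ hT hS h hX h0 hij ht hs)
  · push Not at h0
    obtain ⟨j, hj⟩ := h0
    exact key (OmR_root X Θ T hS h hX hj)

end

/-! ### the points of the domain -/

theorem exp_neg_le {y : ℝ} (hy : 8 ≤ y) : Real.exp (-y) ≤ 1 / 25 := by
  have h1 : (5 : ℝ) ≤ Real.exp (y / 2) := by
    have := Real.add_one_le_exp (y / 2)
    linarith
  have h2 : Real.exp y = Real.exp (y / 2) ^ 2 := by
    rw [← Real.exp_nat_mul]; congr 1; push_cast; ring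
  rw [Real.exp_neg, inv_eq_one_div]
  refine one_div_le_one_div_of_le (by norm_num) ?_
  rw [h2]; nlinarith

theorem near_bound {e ε x : ℂ} (hε : ‖ε‖ ≤ 1 / 6400) (hx : x ∉ H852.ell e ε (1 / 16)) :
    ‖ε‖ < ‖x - e‖ ^ 2 / 4 := by
  obtain ⟨s, hs⟩ : ∃ s : ℂ, s ^ 2 = (x - e) ^ 2 - ε :=
    ⟨((x - e) ^ 2 - ε) ^ (2⁻¹ : ℂ), Complex.cpow_nat_inv_pow _ (n := 2) two_ne_zero⟩
  have key : ∀ U V : ℂ, U * V = ε → U + V = 2 * (x - e) → 1 / 16 ≤ ‖U‖ →
      ‖ε‖ < ‖x - e‖ ^ 2 / 4 := by
    intro U V h1 h2 h3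
    have h4 : ‖U‖ * ‖V‖ = ‖ε‖ := by rw [← norm_mul, h1]
    have h5 : ‖V‖ ≤ 16 * ‖ε‖ := by
      have := norm_nonneg V
      nlinarith
    have h6 : ‖U‖ - ‖V‖ ≤ ‖U + V‖ := by
      have := norm_sub_norm_le U (-V)
      rwa [norm_neg, sub_neg_eq_add] at this
    have h7 : ‖U + V‖ = 2 * ‖x - e‖ := by rw [h2, norm_mul]; simp
    have h8 : (3 : ℝ) / 100 ≤ ‖x - e‖ := by
      rw [h7] at h6; linarith
    nlinarith
  by_contra hc
  apply hx
  refine ⟨(x - e) + s, (x - e) - s, by linear_combination -hs, by ring, ?_, ?_⟩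
  · by_contra h
    exact hc (key ((x - e) + s) ((x - e) - s) (by linear_combination -hs) (by ring)
      (not_lt.1 h))
  · by_contra h
    exact hc (key ((x - e) - s) ((x - e) + s) (by linear_combination -hs) (by ring)
      (not_lt.1 h))

theorem far_bound {ε w : ℂ} (l : Fin 3) (hε : ‖ε‖ ≤ 1 / 6400) (hw : ‖w‖ < 1 / 11) :
    ‖ε * w ^ 2‖ < ‖1 - ctr l * w‖ ^ 2 / 4 := by
  have h2 : ‖ctr l * w‖ ≤ 1 / 2 := by
    rw [norm_mul]
    calc ‖ctr l‖ * ‖w‖ ≤ 11 / 2 * (1 / 11) :=
          mul_le_mul (H975.norm_ctr_le l) hw.le (norm_nonneg _) (by norm_num)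
      _ = 1 / 2 := by norm_num
  have h3 := norm_sub_norm_le (1 : ℂ) (ctr l * w)
  rw [norm_one] at h3
  have h4 : 1 / 2 ≤ ‖1 - ctr l * w‖ := by linarith
  have h5 : ‖w‖ ^ 2 ≤ 1 := by nlinarith [norm_nonneg w]
  rw [norm_mul, norm_pow]
  have h6 : ‖ε‖ * ‖w‖ ^ 2 ≤ 1 / 6400 * 1 :=
    mul_le_mul hε h5 (by positivity) (by norm_num)
  nlinarith

theorem rootsL_mem {y α : Fin 3 → ℝ} (hy : ∀ k, 0 ≤ y k) (hα : ∀ k, -7 ≤ α k ∧ α k ≤ 1) :
    rootsL y α ∈ H681.XX := by
  set d : Fin 3 → ℂ := fun k =>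
    (1 / 16 : ℂ) * Complex.exp ((-(y k : ℂ) + (α k : ℂ) * Complex.I) / 2) with hd
  have hdk : ∀ k, d k = ((1 / 16 * Real.exp (-(y k) / 2) : ℝ) : ℂ) *
      Complex.exp (((α k / 2 : ℝ) : ℂ) * Complex.I) := by
    intro k
    rw [hd]
    simp only
    have h1 : (-(y k : ℂ) + (α k : ℂ) * Complex.I) / 2 =
        ((-(y k) / 2 : ℝ) : ℂ) + ((α k / 2 : ℝ) : ℂ) * Complex.I := by push_cast; ring
    rw [h1, Complex.exp_add]
    push_cast; ring
  have hre : ∀ k, (d k).re = 1 / 16 * Real.exp (-(y k) / 2) * Real.cos (α k / 2) := by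
    intro k
    rw [hdk, Complex.re_ofReal_mul, Complex.exp_ofReal_mul_I_re]
  have him : ∀ k, (d k).im = 1 / 16 * Real.exp (-(y k) / 2) * Real.sin (α k / 2) := by
    intro k
    rw [hdk, Complex.im_ofReal_mul, Complex.exp_ofReal_mul_I_im]
  have hb : ∀ k, |(d k).re| ≤ 1 / 16 := by
    intro k
    have h1 : Real.exp (-(y k) / 2) ≤ 1 := by
      rw [Real.exp_le_one_iff]; have := hy k; linarith
    rw [hre, abs_mul, abs_of_pos (by positivity)]
    have h2 := Real.abs_cos_le_one (α k / 2)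
    have h3 : 0 < Real.exp (-(y k) / 2) := Real.exp_pos _
    have h4 := abs_nonneg (Real.cos (α k / 2))
    nlinarith
  have hs : ∀ k, (d k).re = 0 → (d k).im < 0 := by
    intro k hk
    rw [hre] at hk
    have h3 : (0 : ℝ) < 1 / 16 * Real.exp (-(y k) / 2) := by positivity
    have h4 : Real.cos (α k / 2) = 0 := by
      rcases mul_eq_zero.1 hk with h | h
      · exact absurd h h3.ne'
      · exact h
    obtain ⟨ha, hb⟩ := hα k
    have hpi := Real.pi_gt_three
    have hpi4 := Real.pi_lt_four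
    have hpi2 : Real.pi < 3.15 := Real.pi_lt_d2
    have h5 : α k / 2 ≤ -(Real.pi / 2) := by
      by_contra hc
      have := Real.cos_pos_of_mem_Ioo (x := α k / 2) ⟨by linarith, by linarith⟩
      linarith
    have h6 : α k / 2 + Real.pi = Real.pi / 2 := by
      by_contra hc
      have h7 : α k / 2 + Real.pi < Real.pi / 2 := lt_of_le_of_ne (by linarith) hc
      have := Real.cos_pos_of_mem_Ioo (x := α k / 2 + Real.pi) ⟨by linarith, h7⟩
      rw [Real.cos_add_pi, h4] at this
      linarith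
    have h8 : Real.sin (α k / 2) = -1 := by
      have : α k / 2 = -(Real.pi / 2) := by linarith
      rw [this, Real.sin_neg, Real.sin_pi_div_two]
    rw [him, h8]
    linarith
  have h0 := abs_le.1 (hb 0)
  have h1 := abs_le.1 (hb 1)
  have h2 := abs_le.1 (hb 2)
  have e : rootsL y α = H828.th d := rfl
  rw [e]
  have r0 : (3 / 2 : ℂ).re = 3 / 2 := by norm_num
  have r1 : (7 / 2 : ℂ).re = 7 / 2 := by norm_num
  have r2 : (11 / 2 : ℂ).re = 11 / 2 := by norm_num
  have i0 : (3 / 2 : ℂ).im = 0 := by norm_num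
  have i1 : (7 / 2 : ℂ).im = 0 := by norm_num
  have i2 : (11 / 2 : ℂ).im = 0 := by norm_num
  clear_value d
  intro i j hij hr
  fin_cases i <;> fin_cases j <;>
    first
    | exact absurd hij (by decide)
    | (simp [H828.th] at hr ⊢
       try rw [r0] at hr
       try rw [r1] at hr
       try rw [r2] at hr
       exfalso; linarith)
    | (simp [H828.th] at hr ⊢
       first
       | (have := hs 0 (by linarith); linarith)
       | (have := hs 1 (by linarith); linarith)
       | (have := hs 2 (by linarith); linarith))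

end Vale.Agent.P273.H970

end
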